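import Vale.Agent.N013.Red
import Mathlib.NumberTheory.Chebyshev

/-! N013: transfer of bounds from primorials to all integers. -/

namespace Vale.Agent.N013

open scoped ENNReal ArithmeticFunction.omega Nat.Prime
open Filter Real

theorem pi_le (z : ℕ) : π z ≤ z := by
  rw [← Nat.primesLE_card_eq_primeCounting, Nat.primesLE_eq_filter_Ioc_zero]
  exact (Finset.card_filter_le _ _).trans (by simp)

theorem le_nat {a : ℝ≥0∞} {r : ℝ} {y : ℕ} (H : a ≤ ENNReal.ofReal r) (hr : r ≤ y) : a ≤ y := by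
  rw [← ENNReal.ofReal_natCast]
  exact H.trans (ENNReal.ofReal_le_ofReal hr)

theorem le_real {a : ℝ≥0∞} {r : ℝ} {y : ℕ} (H : a ≤ y) (hr : (y : ℝ) ≤ r) :
    a ≤ ENNReal.ofReal r := by
  rw [← ENNReal.ofReal_natCast] at H
  exact H.trans (ENNReal.ofReal_le_ofReal hr)

/-- power bounds -/
theorem power {β : ℝ} (h1 : 1 ≤ β) (h2 : β < 2)
    (H : ∃ C : ℝ, ∀ k : ℕ, 1 ≤ k → j (P k) ≤ ENNReal.ofReal (C * (k : ℝ) ^ β)) :
    ∃ C : ℝ, ∀ k : ℕ, 1 ≤ k → h k ≤ ENNReal.ofReal (C * (k : ℝ) ^ (β / (2 - β))) := by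
  obtain ⟨C, H⟩ := H
  have b0 : 0 < 2 - β := by linarith
  obtain ⟨D, D1, hD⟩ : ∃ D : ℝ, 1 ≤ D ∧ C * 6 ^ β ≤ D ^ ((2 - β) / 2) := by
    refine ⟨(max 1 (C * 6 ^ β)) ^ ((2 - β) / 2)⁻¹, one_le_rpow (le_max_left _ _) (by positivity), ?_⟩
    rw [rpow_inv_rpow (by positivity) (by positivity)]
    exact le_max_right _ _
  refine ⟨2 * D, fun k hk => ?_⟩
  have k1 : (1 : ℝ) ≤ k := by exact_mod_cast hk
  have e1 : 1 ≤ β / (2 - β) := by rw [le_div_iff₀ b0]; linarith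
  have a1 : (k : ℝ) ≤ k ^ (β / (2 - β)) := by
    simpa using rpow_le_rpow_of_exponent_le k1 e1
  obtain ⟨y, hy⟩ : ∃ y : ℕ, y = ⌈D * (k : ℝ) ^ (β / (2 - β))⌉₊ := ⟨_, rfl⟩
  have y1 : D * (k : ℝ) ^ (β / (2 - β)) ≤ y := hy ▸ Nat.le_ceil _
  have y2 : (y : ℝ) < D * (k : ℝ) ^ (β / (2 - β)) + 1 := hy ▸ Nat.ceil_lt_add_one (by positivity)
  have y3 : (k : ℝ) ≤ y := by nlinarith
  obtain ⟨w, hw⟩ : ∃ w, w = √(k * y : ℝ) := ⟨_, rfl⟩
  have w2 : w * w = k * y := hw ▸ mul_self_sqrt (by positivity)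
  have w1 : (k : ℝ) ≤ w := hw ▸ le_sqrt_of_sq_le (by nlinarith)
  have z1 : w ≤ (⌈w⌉₊ : ℕ) := Nat.le_ceil _
  have z2 : ((⌈w⌉₊ : ℕ) : ℝ) < w + 1 := Nat.ceil_lt_add_one (by linarith)
  have K1 : 5 * w - 1 < (⌊5 * w⌋₊ : ℕ) := Nat.sub_one_lt_floor _
  have K2 : ((⌊5 * w⌋₊ : ℕ) : ℝ) ≤ 6 * w := (Nat.floor_le (by linarith)).trans (by linarith)
  refine le_real (h_le_of (z := ⌈w⌉₊) (y := y) (K := ⌊5 * w⌋₊)
    (by exact_mod_cast (k1.trans w1).trans z1) ?_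
    (le_nat (H _ (by exact_mod_cast (show (1 : ℝ) ≤ (⌊5 * w⌋₊ : ℕ) by linarith))) ?_)) (by nlinarith)
  · have p1 : (π ⌈w⌉₊ : ℝ) ≤ (⌈w⌉₊ : ℕ) := by exact_mod_cast pi_le _
    have p2 : (k : ℝ) * (y / (⌈w⌉₊ : ℕ)) ≤ w := by
      rw [← mul_div_assoc, div_le_iff₀ (by linarith), ← w2]
      exact mul_le_mul_of_nonneg_left z1 (by linarith)
    linarith
  · rcases le_or_gt C 0 with C0 | C0
    · exact (mul_nonpos_of_nonpos_of_nonneg C0 (by positivity)).trans (by positivity)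
    have y0 : (0 : ℝ) < y := by linarith
    have q1 : ((⌊5 * w⌋₊ : ℕ) : ℝ) ^ β ≤ 6 ^ β * ((k : ℝ) ^ (β / 2) * (y : ℝ) ^ (β / 2)) := by
      refine (rpow_le_rpow (by positivity) K2 (by linarith)).trans_eq ?_
      rw [mul_rpow (by norm_num) (by linarith), hw, sqrt_eq_rpow, ← rpow_mul (by positivity),
        mul_rpow (by positivity) y0.le]
      congr 2 <;> ring_nf
    have q2 : D ^ ((2 - β) / 2) * (k : ℝ) ^ (β / 2) ≤ (y : ℝ) ^ ((2 - β) / 2) := by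
      refine le_trans (le_of_eq ?_) (rpow_le_rpow (by positivity) y1 (by positivity))
      rw [mul_rpow (by positivity) (by positivity), ← rpow_mul (by positivity)]
      congr 2
      field_simp
    calc C * ((⌊5 * w⌋₊ : ℕ) : ℝ) ^ β ≤ C * 6 ^ β * (k : ℝ) ^ (β / 2) * (y : ℝ) ^ (β / 2) := by
          nlinarith [mul_le_mul_of_nonneg_left q1 C0.le]
      _ ≤ (y : ℝ) ^ ((2 - β) / 2) * (y : ℝ) ^ (β / 2) :=
          mul_le_mul_of_nonneg_right ((mul_le_mul_of_nonneg_right hD (by positivity)).trans q2)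
            (by positivity)
      _ = y := by
          rw [← rpow_add y0]
          simp [show (2 - β) / 2 + β / 2 = 1 by ring]

/-- Vaughan's estimate is equivalent to its case `n = P k` -/
theorem vaughan_iff : (∀ ε > (0 : ℝ), ∃ C : ℝ, ∀ n : ℕ, 1 < n →
      j n ≤ ENNReal.ofReal (C * (ω n : ℝ) ^ (1 + ε))) ↔
    ∀ ε > (0 : ℝ), ∃ C : ℝ, ∀ k : ℕ, 1 ≤ k → j (P k) ≤ ENNReal.ofReal (C * (k : ℝ) ^ (1 + ε)) := by
  refine ⟨fun H ε hε => (H ε hε).imp fun C hC k hk => ?_, fun H ε hε => ?_⟩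
  · have := hC (P k) (by
      by_contra hh
      have := ArithmeticFunction.cardDistinctFactors_eq_zero.2 (not_lt.1 hh)
      rw [omega_P] at this
      omega)
    rwa [omega_P] at this
  · have d0 : 0 < ε / (2 + ε) := by positivity
    have d1 : ε / (2 + ε) < 1 := (div_lt_one (by positivity)).2 (by linarith)
    obtain ⟨C, hC⟩ := power (β := 1 + ε / (2 + ε)) (by linarith) (by linarith) (H _ d0)
    refine ⟨C, fun n hn => (j_le_h hn.le le_rfl).trans ?_⟩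
    have := hC (ω n) (Nat.pos_of_ne_zero fun e =>
      absurd (ArithmeticFunction.cardDistinctFactors_eq_zero.1 e) (by omega))
    rwa [show (1 + ε / (2 + ε)) / (2 - (1 + ε / (2 + ε))) = 1 + ε by field_simp; ring] at this

theorem tlog : Tendsto (fun k : ℕ => log (k : ℝ)) atTop atTop :=
  tendsto_log_atTop.comp tendsto_natCast_atTop_atTop

theorem ev_pow (A a ε : ℝ) (hε : 0 < ε) : ∀ᶠ k : ℕ in atTop, A * log k ^ a ≤ (k : ℝ) ^ ε := by
  have := (isLittleO_log_rpow_rpow_atTop a hε).const_mul_left A |>.bound one_pos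
  filter_upwards [tendsto_natCast_atTop_atTop.eventually this] with k hk
  rw [one_mul, norm_of_nonneg (by positivity : 0 ≤ (k : ℝ) ^ ε)] at hk
  exact (le_norm_self _).trans hk

/-- bounds of the shape `k (log k) ^ a` -/
theorem polylog {a : ℝ} (ha : 1 ≤ a)
    (H : ∃ C : ℝ, ∀ᶠ k : ℕ in atTop, j (P k) ≤ ENNReal.ofReal (C * k * log k ^ a)) :
    ∃ C : ℝ, ∀ᶠ k : ℕ in atTop, h k ≤ ENNReal.ofReal (C * k * log k ^ (2 * a - 1)) := by
  obtain ⟨C', H'⟩ := H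
  obtain ⟨C, C1, H⟩ : ∃ C : ℝ, 1 ≤ C ∧
      ∀ᶠ k : ℕ in atTop, j (P k) ≤ ENNReal.ofReal (C * k * log k ^ a) :=
    ⟨max 1 C', le_max_left _ _, H'.mono fun k hk => hk.trans (ENNReal.ofReal_le_ofReal (by
      have := log_natCast_nonneg k
      gcongr
      exact le_max_right _ _))⟩
  obtain ⟨K₀, H⟩ := eventually_atTop.1 H
  obtain ⟨z₀, hz₀⟩ := eventually_atTop.1 (tendsto_natCast_atTop_atTop.eventually
    (Chebyshev.eventually_primeCounting_le one_pos))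
  obtain ⟨c, c1, hc⟩ : ∃ c : ℝ, 1 ≤ c ∧ ∀ z : ℕ, z₀ ≤ z → (π z : ℝ) ≤ c * z / log z :=
    ⟨log 4 + 1, by have := log_nonneg (show (1 : ℝ) ≤ 4 by norm_num); linarith,
      fun z hz => by simpa using hz₀ z hz⟩
  obtain ⟨E, hE⟩ : ∃ E, E = C * 2 ^ a := ⟨_, rfl⟩
  have E1 : 1 ≤ E := hE ▸ one_le_mul_of_one_le_of_one_le C1 (one_le_rpow one_le_two (by linarith))
  obtain ⟨l, hl⟩ : ∃ l, l = 6 * E * c := ⟨_, rfl⟩
  have l1 : 1 ≤ l := by rw [hl]; nlinarith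
  refine ⟨2 * (6 * E * l), ?_⟩
  filter_upwards [eventually_ge_atTop (max K₀ z₀), eventually_ge_atTop 1,
    tlog.eventually_ge_atTop 1, ev_pow (6 * l) (a - 1) 1 one_pos]
    with k hk hk1 hL hev
  have k1 : (1 : ℝ) ≤ k := by exact_mod_cast hk1
  rw [rpow_one] at hev
  obtain ⟨L, hLd⟩ : ∃ L, L = log (k : ℝ) := ⟨_, rfl⟩
  rw [← hLd] at hL hev ⊢
  obtain ⟨u, hu⟩ : ∃ u, u = L ^ (a - 1) := ⟨_, rfl⟩
  have u1 : 1 ≤ u := hu ▸ one_le_rpow hL (by linarith)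
  have e1 : L ^ a = u * L := by rw [hu, ← rpow_add_one (by linarith)]; congr 1; ring
  have e2 : L ^ (2 * a - 1) = u * L * u := by
    rw [← e1, hu, ← rpow_add (by linarith)]; congr 1; ring
  rw [e2]
  rw [← hu] at hev
  have uL : 1 ≤ u * L := one_le_mul_of_one_le_of_one_le u1 hL
  obtain ⟨Y, hY⟩ : ∃ Y, Y = 6 * E * l * k * (u * L * u) := ⟨_, rfl⟩
  obtain ⟨Z, hZ⟩ : ∃ Z, Z = 6 * E * k * (u * L) := ⟨_, rfl⟩
  have YZ : Y = Z * (l * u) := by rw [hY, hZ]; ring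
  have Z1 : (k : ℝ) ≤ Z := by rw [hZ]; nlinarith [mul_le_mul E1 uL zero_le_one (by linarith)]
  have lu : 1 ≤ l * u := one_le_mul_of_one_le_of_one_le l1 u1
  have Y1 : 1 ≤ Y := by rw [YZ]; nlinarith
  obtain ⟨y, hy⟩ : ∃ y : ℕ, y = ⌈Y⌉₊ := ⟨_, rfl⟩
  obtain ⟨z, hz⟩ : ∃ z : ℕ, z = ⌈2 * Z⌉₊ := ⟨_, rfl⟩
  have y1 : Y ≤ y := hy ▸ Nat.le_ceil _
  have y2 : (y : ℝ) ≤ 2 * Y := (hy ▸ Nat.ceil_lt_add_one (by linarith) : (y : ℝ) < _).le.trans
    (by linarith)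
  have z1 : 2 * Z ≤ z := hz ▸ Nat.le_ceil _
  have z2 : (z : ℝ) ≤ 3 * Z := (hz ▸ Nat.ceil_lt_add_one (by linarith) : (z : ℝ) < _).le.trans
    (by linarith)
  have kz : k ≤ z := by exact_mod_cast (show (k : ℝ) ≤ z by linarith)
  have p1 : (π z : ℝ) ≤ 18 * c * E * k * u := by
    refine (hc z (((le_max_right _ _).trans hk).trans kz)).trans ?_
    have h1 : L ≤ log z := hLd ▸ log_le_log (by linarith) (by exact_mod_cast kz)
    rw [div_le_iff₀ (by linarith)]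
    calc c * z ≤ c * (3 * Z) := by gcongr
      _ = 18 * c * E * k * u * L := by rw [hZ]; ring
      _ ≤ _ := by gcongr
  have p2 : (y : ℝ) / z ≤ l * u := by
    rw [div_le_iff₀ (by linarith)]
    nlinarith
  obtain ⟨K, hK⟩ : ∃ K : ℕ, K = ⌈(π z : ℝ) + k * (y / z + 1)⌉₊ := ⟨_, rfl⟩
  have K1 : (π z : ℝ) + k * (y / z + 1) ≤ K := hK ▸ Nat.le_ceil _
  have p0 : (0 : ℝ) ≤ y / z := by positivity
  have klu : (k : ℝ) ≤ k * (l * u) := le_mul_of_one_le_right (by linarith) lu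
  have K2 : (K : ℝ) ≤ 6 * l * u * k := by
    have h1 : (K : ℝ) < _ := hK ▸ Nat.ceil_lt_add_one (by positivity)
    have h2 := mul_le_mul_of_nonneg_left p2 (show (0 : ℝ) ≤ k by linarith)
    have h3 : 18 * c * E * k * u = 3 * (k * (l * u)) := by rw [hl]; ring
    linarith
  have K3 : (k : ℝ) ≤ K := by
    have : (0 : ℝ) ≤ π z := by positivity
    nlinarith
  have K4 : log K ≤ 2 * L := by
    have h1 : (K : ℝ) ≤ k ^ 2 := K2.trans (by nlinarith)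
    have h2 := log_le_log (by linarith) h1
    rwa [log_pow, ← hLd] at h2
  refine le_real (h_le_of (hk1.trans kz) K1 (le_nat (H K (((le_max_left _ _).trans hk).trans
    (by exact_mod_cast K3))) ?_)) (by rw [hY] at y2; linarith)
  have h1 : log K ^ a ≤ 2 ^ a * (u * L) := by
    rw [← e1, ← mul_rpow zero_le_two (by linarith)]
    exact rpow_le_rpow (log_natCast_nonneg K) K4 (by linarith)
  calc C * K * log K ^ a ≤ C * (6 * l * u * k) * (2 ^ a * (u * L)) := by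
        have := log_natCast_nonneg K
        gcongr
    _ = Y := by rw [hY, hE]; ring
    _ ≤ y := y1

theorem exists_nat {a : ℝ≥0∞} {n : ℕ} (H : j n < a) :
    ∃ y : ℕ, j n ≤ y ∧ (y : ℝ≥0∞) < a := by
  have H' := H
  simp only [j, iInf_lt_iff] at H'
  obtain ⟨y, h1, h2⟩ := H'
  exact ⟨y, j_le_iff.2 h1.2, h2⟩

/-- the sandwich -/
theorem sandwich (B : ℝ) (hB : 0 < B) : ∀ᶠ k : ℕ in atTop,
    h k ≤ j (P ⌈(k : ℝ) ^ (3 / 2 : ℝ) / log k ^ B⌉₊) := by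
  obtain ⟨C, C0, H⟩ := h_log (2 * B + 1) (by linarith)
  filter_upwards [eventually_ge_atTop 2, tlog.eventually_ge_atTop (max 1 (16 * C)),
    ev_pow 4 B (1 / 2) one_half_pos] with k hk hL hev
  have k1 : (2 : ℝ) ≤ k := by exact_mod_cast hk
  obtain ⟨L, hLd⟩ : ∃ L, L = log (k : ℝ) := ⟨_, rfl⟩
  have H := H k hk
  rw [← hLd] at hL hev H ⊢
  have L1 : 1 ≤ L := (le_max_left _ _).trans hL
  have L2 : 16 * C ≤ L := (le_max_right _ _).trans hL
  obtain ⟨v, hv⟩ : ∃ v, v = L ^ B := ⟨_, rfl⟩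
  have v1 : 1 ≤ v := hv ▸ one_le_rpow L1 hB.le
  obtain ⟨s, hs⟩ : ∃ s, s = (k : ℝ) ^ (1 / 2 : ℝ) := ⟨_, rfl⟩
  have e1 : (k : ℝ) ^ (3 / 2 : ℝ) = k * s := by
    rw [hs, mul_comm, ← rpow_add_one (by linarith)]; norm_num
  have e2 : s * s = k := by rw [hs, ← rpow_add (by linarith)]; norm_num
  have e3 : L ^ (2 * B + 1) = v * v * L := by
    rw [hv, ← rpow_add (by linarith), ← rpow_add_one (by linarith)]; congr 1; ring
  rw [e1, ← hv]
  rw [← hv, ← hs] at hev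
  rw [e3] at H
  obtain ⟨W, hW⟩ : ∃ W, W = k * s / v := ⟨_, rfl⟩
  rw [← hW]
  have W1 : 4 * k ≤ W := by rw [hW, le_div_iff₀ (by linarith)]; nlinarith
  by_contra hcon
  obtain ⟨y, y1, y2⟩ := exists_nat (not_le.1 hcon)
  have y3 : (y : ℝ) ≤ C * k ^ 2 / (v * v * L) := by
    have := (y2.trans_le H).le
    rwa [← ENNReal.ofReal_natCast, ENNReal.ofReal_le_ofReal_iff (by positivity)] at this
  have z1 : W / 4 ≤ (⌈W / 4⌉₊ : ℕ) := Nat.le_ceil _
  have z2 : ((⌈W / 4⌉₊ : ℕ) : ℝ) < W / 4 + 1 := Nat.ceil_lt_add_one (by linarith)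
  refine absurd (h_le_of (z := ⌈W / 4⌉₊) (by exact_mod_cast (show (1 : ℝ) ≤ (⌈W / 4⌉₊ : ℕ) by
    linarith)) (le_trans ?_ (Nat.le_ceil W)) y1) (not_le.2 y2)
  have p1 : (π ⌈W / 4⌉₊ : ℝ) ≤ (⌈W / 4⌉₊ : ℕ) := by exact_mod_cast pi_le _
  have p2 : (k : ℝ) * (y / (⌈W / 4⌉₊ : ℕ)) ≤ W / 4 := by
    rw [← mul_div_assoc, div_le_iff₀ (by linarith)]
    refine le_trans ?_ (mul_le_mul_of_nonneg_left z1 (by linarith))
    have h1 : W / 4 * (W / 4) = k * (k ^ 2 / (16 * (v * v))) := by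
      have : W * W = k * (k ^ 2 / (v * v)) := by
        rw [hW]
        field_simp
        nlinarith
      rw [show W / 4 * (W / 4) = W * W / 16 by ring, this]
      field_simp
    rw [h1]
    refine mul_le_mul_of_nonneg_left (y3.trans ?_) (by linarith)
    rw [div_le_div_iff₀ (by positivity) (by positivity)]
    have : 0 ≤ (k : ℝ) ^ 2 * (v * v) := by positivity
    nlinarith
  linarith

/-- the bound in terms of `log n` -/
theorem log_form (B : ℝ) (hB : 0 < B) : ∃ C : ℝ, ∀ n : ℕ, 3 ≤ n →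
    j n ≤ ENNReal.ofReal (C * log n ^ 2 / log (log n) ^ B) := by
  obtain ⟨C, C0, H⟩ := h_log B hB
  refine ⟨9 * C, fun n hn => ?_⟩
  have n3 : (3 : ℝ) ≤ n := by exact_mod_cast hn
  have l1 : 1 < log n := by
    rw [lt_log_iff_exp_lt (by linarith)]
    linarith [exp_one_lt_d9]
  obtain ⟨k, hk⟩ : ∃ k : ℕ, k = ⌈2 * log n⌉₊ := ⟨_, rfl⟩
  have k1 : 2 * log n ≤ k := hk ▸ Nat.le_ceil _
  have k2 : (k : ℝ) < 2 * log n + 1 := hk ▸ Nat.ceil_lt_add_one (by linarith)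
  have w : ω n ≤ k := by
    have h1 : 2 ^ n.primeFactors.card ≤ n :=
      (Finset.pow_card_le_prod _ _ 2 fun p hp => (Nat.prime_of_mem_primeFactors hp).two_le).trans
        (Nat.le_of_dvd (by omega) (Nat.prod_primeFactors_dvd n))
    have h2 : (2 : ℝ) ^ n.primeFactors.card ≤ n := by exact_mod_cast h1
    have h3 := log_le_log (by positivity) h2
    rw [log_pow] at h3
    have h4 : (n.primeFactors.card : ℝ) ≤ k := by
      have : (0 : ℝ) ≤ n.primeFactors.card := by positivity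
      nlinarith [log_two_gt_d9]
    rw [omega_eq]
    exact_mod_cast h4
  refine (j_le_h (by omega) w).trans ((H k (by exact_mod_cast (show (2 : ℝ) ≤ k by linarith))).trans
    (ENNReal.ofReal_le_ofReal ?_))
  have ll : 0 < log (log n) := log_pos l1
  have k3 : (k : ℝ) ^ 2 ≤ (3 * log n) ^ 2 := by gcongr; linarith
  refine div_le_div₀ (by positivity) (by nlinarith) (rpow_pos_of_pos ll _)
    (rpow_le_rpow ll.le (log_le_log (by linarith) (by linarith)) hB.le)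

theorem both_log (B : ℝ) (hB : 0 < B) : ∃ C : ℝ,
    (∀ k : ℕ, 2 ≤ k → h k ≤ ENNReal.ofReal (C * k ^ 2 / log k ^ B)) ∧
    ∀ n : ℕ, 3 ≤ n → j n ≤ ENNReal.ofReal (C * log n ^ 2 / log (log n) ^ B) := by
  obtain ⟨C, -, H⟩ := h_log B hB
  obtain ⟨C', H'⟩ := log_form B hB
  refine ⟨max C C', fun k hk => (H k hk).trans (ENNReal.ofReal_le_ofReal ?_),
    fun n hn => (H' n hn).trans (ENNReal.ofReal_le_ofReal ?_)⟩
  · have := log_natCast_nonneg k
    gcongr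
    exact le_max_left _ _
  · have n3 : (3 : ℝ) ≤ n := by exact_mod_cast hn
    have l1 : 1 < log n := by
      rw [lt_log_iff_exp_lt (by linarith)]
      linarith [exp_one_lt_d9]
    have := (log_pos l1).le
    gcongr
    exact le_max_right _ _

end Vale.Agent.N013
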