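import Mathlib.NumberTheory.ArithmeticFunction.Misc
import Mathlib.NumberTheory.PrimeCounting
import Mathlib.Data.ENNReal.Inv

/-! Jacobsthal's function, with values in `[0, ∞]`. -/

namespace Vale.Agent.N013

open scoped ENNReal ArithmeticFunction.omega

/-- `j n`: the least positive integer `m` such that every set `x + 1, …, x + m` of `m` consecutive
integers contains an integer coprime to `n` (`∞` if there were none). -/
noncomputable def j (n : ℕ) : ℝ≥0∞ :=
  ⨅ (m : ℕ) (_ : 0 < m ∧ ∀ x : ℤ, ∃ t : ℤ, x < t ∧ t ≤ x + m ∧ IsCoprime t n), (m : ℝ≥0∞)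

/-- `h k`: the supremum of `j n` over all `n ≥ 1` with at most `k` distinct prime divisors. -/
noncomputable def h (k : ℕ) : ℝ≥0∞ := ⨆ (n : ℕ) (_ : 1 ≤ n ∧ ω n ≤ k), j n

/-- `P k`: the product of the first `k` primes. -/
noncomputable def P (k : ℕ) : ℕ := ∏ i ∈ Finset.range k, Nat.nth Nat.Prime i

end Vale.Agent.N013
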