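import Vale.Agent.N013.Defs
import Vale.Agent.P013.Bdl.B6

/-! N013: from arbitrary sets of primes to the first primes. -/

namespace Vale.Agent.N013

open scoped ENNReal ArithmeticFunction.omega Nat.Prime
open Finset

/-- every `m` consecutive integers contain one that is coprime to `n` -/
def Good (n m : ℕ) : Prop := ∀ x : ℤ, ∃ t : ℤ, x < t ∧ t ≤ x + m ∧ IsCoprime t n

theorem Good.mono {n m m' : ℕ} (H : Good n m) (hm : m ≤ m') : Good n m' := fun x =>
  let ⟨t, h1, h2, h3⟩ := H x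
  ⟨t, h1, by omega, h3⟩

theorem Good.pos {n m : ℕ} (H : Good n m) : 0 < m := by
  obtain ⟨t, h1, h2, -⟩ := H 0
  omega

theorem j_le_iff {n y : ℕ} : j n ≤ y ↔ Good n y := by
  refine ⟨fun H => ?_, fun H => iInf₂_le y ⟨H.pos, H⟩⟩
  have h1 : j n < (y + 1 : ℕ) := H.trans_lt (by exact_mod_cast Nat.lt_succ_self y)
  simp only [j, iInf_lt_iff] at h1
  obtain ⟨m, hm, h2⟩ := h1
  exact Good.mono hm.2 (Nat.lt_succ_iff.1 (by exact_mod_cast h2))

theorem omega_eq (n : ℕ) : ω n = n.primeFactors.card := by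
  rw [ArithmeticFunction.cardDistinctFactors_apply, ← Nat.toFinset_factors, List.card_toFinset]

theorem j_le_h {n k : ℕ} (h1 : 1 ≤ n) (h2 : ω n ≤ k) : j n ≤ h k :=
  le_iSup₂ (f := fun n (_ : 1 ≤ n ∧ ω n ≤ k) => j n) n ⟨h1, h2⟩

theorem h_le_iff {k : ℕ} {a : ℝ≥0∞} : h k ≤ a ↔ ∀ n, 1 ≤ n → ω n ≤ k → j n ≤ a := by
  simp only [h, iSup_le_iff, and_imp]

theorem good_self {n : ℕ} (hn : 1 ≤ n) : Good n n := fun x => by
  have hn' : (0 : ℤ) < n := by exact_mod_cast hn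
  refine ⟨n * ((x - 1) / n + 1) + 1, ?_, ?_, ⟨1, -((x - 1) / n + 1), by ring⟩⟩
  · have := Int.lt_mul_ediv_self_add (x := x - 1) hn'
    linarith
  · have := Int.mul_ediv_self_le (x := x - 1) hn'.ne'
    linarith

theorem j_le_jac {n : ℕ} (hn : 1 ≤ n) : j n ≤ (P013.jacobsthal n : ℕ) := by
  have hne : {m : ℕ | 0 < m ∧ ∀ x : ℤ, ∃ t : ℤ, x < t ∧ t ≤ x + m ∧ Int.gcd t n = 1}.Nonempty :=
    ⟨n, hn, fun x => by simpa only [Int.isCoprime_iff_gcd_eq_one] using good_self hn x⟩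
  exact j_le_iff.2 fun x => by
    simpa only [Int.isCoprime_iff_gcd_eq_one, P013.jacobsthal] using (Nat.sInf_mem hne).2 x

theorem h_le_hJ (k : ℕ) : h k ≤ (P013.J.hJ k : ℕ) := h_le_iff.2 fun n h1 h2 =>
  (j_le_jac h1).trans (by
    exact_mod_cast (P013.J.jacobsthal_conj P013.J.tstar_full).2.2.2 k n h1 (omega_eq n ▸ h2))

theorem h_sq : ∃ C : ℝ, ∀ k : ℕ, 1 ≤ k → h k ≤ ENNReal.ofReal (C * k ^ 2) := by
  obtain ⟨C, -, H⟩ := (P013.J.jacobsthal_conj P013.J.tstar_full).1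
  exact ⟨C, fun k hk => (h_le_hJ k).trans (by
    rw [← ENNReal.ofReal_natCast]; exact ENNReal.ofReal_le_ofReal (H k hk))⟩

theorem h_log (B : ℝ) (hB : 0 < B) : ∃ C > (0 : ℝ), ∀ k : ℕ, 2 ≤ k →
    h k ≤ ENNReal.ofReal (C * k ^ 2 / Real.log k ^ B) := by
  obtain ⟨C, C0, H⟩ := (P013.J.jacobsthal_conj P013.J.tstar_full).2.1 B hB
  exact ⟨C, C0, fun k hk => (h_le_hJ k).trans (by
    rw [← ENNReal.ofReal_natCast]; exact ENNReal.ofReal_le_ofReal (H k hk))⟩

theorem nth_inj : Function.Injective (Nat.nth Nat.Prime) :=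
  Nat.nth_injective Nat.infinite_setOfPred_prime

theorem P_pos (k : ℕ) : 1 ≤ P k := prod_pos fun i _ => (Nat.prime_nth_prime i).pos

theorem omega_P (k : ℕ) : ω (P k) = k := by
  rw [omega_eq, P, ← prod_image (g := Nat.nth Nat.Prime) (f := fun p => p) nth_inj.injOn,
    Nat.primeFactors_prod (by
      intro p hp
      obtain ⟨i, -, rfl⟩ := mem_image.1 hp
      exact Nat.prime_nth_prime i), card_image_of_injective _ nth_inj, card_range]

theorem jP_le_h (k : ℕ) : j (P k) ≤ h k := j_le_h (P_pos k) (omega_P k).le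

theorem crt (K : ℕ) (r : ℕ → ℤ) : ∃ x : ℤ, ∀ i < K, (Nat.nth Nat.Prime i : ℤ) ∣ x - r i := by
  obtain ⟨x, hx⟩ := Nat.chineseRemainderOfFinset (fun i => (r i % Nat.nth Nat.Prime i).toNat)
    (Nat.nth Nat.Prime) (range K) (fun i _ => (Nat.prime_nth_prime i).ne_zero)
    fun i _ i' _ hne => (Nat.coprime_primes (Nat.prime_nth_prime i) (Nat.prime_nth_prime i')).2
      fun e => hne (nth_inj e)
  refine ⟨x, fun i hi => ?_⟩
  have h1 := (Nat.modEq_iff_dvd.1 (hx i (mem_range.2 hi)).symm)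
  have h0 : (Nat.nth Nat.Prime i : ℤ) ≠ 0 := by exact_mod_cast (Nat.prime_nth_prime i).ne_zero
  rw [Int.toNat_of_nonneg (Int.emod_nonneg _ h0)] at h1
  have h2 : (Nat.nth Nat.Prime i : ℤ) ∣ r i % Nat.nth Nat.Prime i - r i :=
    (Int.mod_modEq _ _).symm.dvd
  simpa using dvd_add h1 h2

/-- **the reduction** -/
theorem reduce {n k z y K : ℕ} (hn : 1 ≤ n) (hk : ω n ≤ k) (hz : 1 ≤ z)
    (hK : (π z : ℝ) + k * (y / z + 1) ≤ K) (H : Good (P K) y) : Good n y := by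
  classical
  intro x
  by_contra hcon
  push Not at hcon
  set U := (Icc 1 y).filter fun i : ℕ => ∀ p : ℕ, p.Prime → p ≤ z → ¬ (p : ℤ) ∣ x + i with hU
  have hz0 : (0 : ℝ) < z := by exact_mod_cast hz
  have hsub : U ⊆ (n.primeFactors.filter fun p => z < p).biUnion
      fun p => (Icc 1 y).filter fun i : ℕ => (p : ℤ) ∣ (i : ℤ) - (-x) := by
    intro i hi
    obtain ⟨hi1, hi2⟩ := mem_filter.1 hi
    have hi3 := mem_Icc.1 hi1
    have h1 := hcon (x + i) (by omega) (by omega)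
    rw [Int.isCoprime_iff_gcd_eq_one] at h1
    obtain ⟨p, hp, hpd⟩ := Nat.exists_prime_and_dvd h1
    have hp1 : (p : ℤ) ∣ x + i := (Int.natCast_dvd_natCast.2 hpd).trans (Int.gcd_dvd_left ..)
    have hp2 : p ∣ n := Int.natCast_dvd_natCast.1
      ((Int.natCast_dvd_natCast.2 hpd).trans (Int.gcd_dvd_right ..))
    refine mem_biUnion.2 ⟨p, mem_filter.2 ⟨Nat.mem_primeFactors.2 ⟨hp, hp2, by omega⟩,
      not_le.1 fun hle => hi2 p hp hle hp1⟩, mem_filter.2 ⟨hi1, ?_⟩⟩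
    rwa [sub_neg_eq_add, add_comm]
  have hcard : (U.card : ℝ) ≤ k * (y / z + 1) := by
    have e1 := (card_le_card hsub).trans card_biUnion_le
    have e2 : ∑ p ∈ n.primeFactors.filter (fun p => z < p),
        (((Icc 1 y).filter fun i : ℕ => (p : ℤ) ∣ (i : ℤ) - (-x)).card : ℝ) ≤
        (n.primeFactors.filter fun p => z < p).card • ((y : ℝ) / z + 1) :=
      sum_le_card_nsmul _ _ _ fun p hp => by
        have h1 := (mem_filter.1 hp).2
        have h2 : (y : ℝ) / p ≤ y / z :=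
          div_le_div_of_nonneg_left (by positivity) hz0 (by exact_mod_cast h1.le)
        linarith [P013.J.fin_card_dvd y p (by omega) (-x)]
    have e3 : ((n.primeFactors.filter fun p => z < p).card : ℝ) ≤ k := by
      exact_mod_cast (card_filter_le _ _).trans (omega_eq n ▸ hk)
    rw [nsmul_eq_mul] at e2
    refine le_trans (by exact_mod_cast e1) (e2.trans ?_)
    exact mul_le_mul_of_nonneg_right e3 (by positivity)
  have hlen : π z + U.toList.length ≤ K := by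
    rw [length_toList]
    exact_mod_cast (add_le_add_right hcard _).trans hK
  obtain ⟨x', hx'⟩ := crt K fun i => if i < π z then x else -(U.toList.getD (i - π z) 0 : ℕ)
  obtain ⟨t, t1, t2, t3⟩ := H x'
  obtain ⟨s, rfl⟩ : ∃ s : ℕ, t = x' + s := ⟨(t - x').toNat, by omega⟩
  have key : ∀ i < K, ¬ (Nat.nth Nat.Prime i : ℤ) ∣ x' + s := fun i hi hd => by
    have h1 : (Nat.nth Nat.Prime i : ℤ) ∣ (P K : ℕ) :=
      Int.natCast_dvd_natCast.2 (dvd_prod_of_mem _ (mem_range.2 hi))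
    exact (Nat.prime_iff_prime_int.1 (Nat.prime_nth_prime i)).not_isUnit (t3.isUnit_of_dvd' hd h1)
  by_cases hs : s ∈ U
  · obtain ⟨m, hm, e⟩ := List.getElem_of_mem (mem_toList.2 hs)
    have h1 := hx' (π z + m) (by omega)
    rw [if_neg (by omega), Nat.add_sub_cancel_left, List.getD_eq_getElem _ _ hm, e,
      sub_neg_eq_add] at h1
    exact key _ (by omega) h1
  · have h1 : ¬ ∀ p : ℕ, p.Prime → p ≤ z → ¬ (p : ℤ) ∣ x + s := fun h2 =>
      hs (mem_filter.2 ⟨mem_Icc.2 ⟨by omega, by omega⟩, h2⟩)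
    push Not at h1
    obtain ⟨p, hp, hpz, hd⟩ := h1
    have e : Nat.nth Nat.Prime (Nat.count Nat.Prime p) = p := Nat.nth_count hp
    have hi : Nat.count Nat.Prime p < π z := Nat.count_lt_count_succ_iff.2 hp |>.trans_le
      (Nat.count_monotone _ (Nat.succ_le_succ hpz))
    have h2 := hx' _ (hi.trans_le (by omega))
    rw [if_pos hi] at h2
    refine key _ (hi.trans_le (by omega)) ?_
    rw [e] at h2 ⊢
    have h3 := dvd_add h2 hd
    rwa [show x' - x + (x + s) = x' + s by ring] at h3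

theorem h_le_of {k z y K : ℕ} (hz : 1 ≤ z) (hK : (π z : ℝ) + k * (y / z + 1) ≤ K)
    (H : j (P K) ≤ y) : h k ≤ y :=
  h_le_iff.2 fun _ h1 h2 => j_le_iff.2 (reduce h1 h2 hz hK (j_le_iff.1 H))

end Vale.Agent.N013
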